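import Vale.Agent.P166.H542.Fin

namespace Vale.Agent.Results.P166.DeterministicEquivalent

open MeasureTheory Matrix Filter Topology Vale.Agent.P166 Vale.Agent.P157.Par
open Vale.Agent.P166.H542

theorem result
    [∀ N, MeasurableSpace (orthogonalGroup (Fin N) ℝ)]
    [∀ N, BorelSpace (orthogonalGroup (Fin N) ℝ)]
    (ν : (N : ℕ) → Measure (orthogonalGroup (Fin N) ℝ))
    [∀ N, IsProbabilityMeasure (ν N)] [∀ N, (ν N).IsMulLeftInvariant] :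
    ∃ p : ℝ → Measure ℝ → ℝ,
      (∀ β : ℝ, 0 < β → ∀ (μ : Measure ℝ) [IsProbabilityMeasure μ], IsCompact μ.support →
        (∀ (k : ℕ) (m q : ℕ → ℝ), Exponents k m → Path k q → q k < 1 →
          BddAbove {x : ℝ | ∃ r : ℕ → ℝ, Path k r ∧ x = Jf β μ k m q r}) ∧
        IsGLB {y : ℝ | ∃ (k : ℕ) (m q : ℕ → ℝ), Exponents k m ∧ Path k q ∧ q 0 = 0 ∧ q k < 1 ∧
          IsLUB {x : ℝ | ∃ r : ℕ → ℝ, Path k r ∧ x = Jf β μ k m q r} y} (p β μ) ∧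
        ∀ Λ : (N : ℕ) → Fin N → ℝ, Admissible Λ μ →
          Tendsto (fun N => ∫ U, (pressure N β (U.1ᵀ * diagonal (Λ N) * U.1) - p β μ) ^ 2 ∂(ν N))
            atTop (𝓝 0) ∧
          (∀ ε > 0, Tendsto (fun N => (ν N).real
            {U | ε ≤ |pressure N β (U.1ᵀ * diagonal (Λ N) * U.1) - p β μ|}) atTop (𝓝 0)) ∧
          ∀ (Ω : Type) [MeasurableSpace Ω] (P : Measure Ω) [IsProbabilityMeasure P]
            (W : (N : ℕ) → Ω → orthogonalGroup (Fin N) ℝ),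
            (∀ N, Measurable (W N)) → (∀ N, P.map (W N) = ν N) →
            ∀ᵐ ω ∂P, Tendsto (fun N => pressure N β ((W N ω).1ᵀ * diagonal (Λ N) * (W N ω).1))
              atTop (𝓝 (p β μ))) ∧
      (∀ (K : ℝ) (ρ : ℝ → ℝ), (∀ δ > 0, 0 < ρ δ) →
        (∀ B ε : ℝ, 0 < ε → ∃ N₀ : ℕ, ∀ N ≥ N₀, ∀ a : Fin N → ℝ, Regular K ρ a →
          ∀ β : ℝ, 0 < β → β ≤ B →
            ∫ U, (pressure N β (U.1ᵀ * diagonal a * U.1) - p β (emp a)) ^ 2 ∂(ν N) ≤ ε) ∧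
        ∀ Λ : (N : ℕ) → Fin N → ℝ, (∀ᶠ N in atTop, Regular K ρ (Λ N)) →
          ∀ (Ω : Type) [MeasurableSpace Ω] (P : Measure Ω) [IsProbabilityMeasure P]
            (W : (N : ℕ) → Ω → orthogonalGroup (Fin N) ℝ),
            (∀ N, Measurable (W N)) → (∀ N, P.map (W N) = ν N) →
            ∀ᵐ ω ∂P, ∀ B ε : ℝ, 0 < ε → ∀ᶠ N in atTop, ∀ β : ℝ, 0 < β → β ≤ B →
              |pressure N β ((W N ω).1ᵀ * diagonal (Λ N) * (W N ω).1) - p β (emp (Λ N))| ≤ ε) ∧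
      (∀ β : ℝ, 0 < β → ∀ (μs : ℕ → Measure ℝ) (μ : Measure ℝ) [∀ n, IsProbabilityMeasure (μs n)]
        [IsProbabilityMeasure μ], (∀ n, IsCompact (μs n).support) → IsCompact μ.support →
        (∀ f : BoundedContinuousFunction ℝ ℝ,
          Tendsto (fun n => ∫ x, f x ∂(μs n)) atTop (𝓝 (∫ x, f x ∂μ))) →
        Tendsto (fun n => sInf (μs n).support) atTop (𝓝 (sInf μ.support)) →
        Tendsto (fun n => sSup (μs n).support) atTop (𝓝 (sSup μ.support)) →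
        Tendsto (fun n => p β (μs n)) atTop (𝓝 (p β μ))) ∧
      ∀ β : ℝ, 0 < β → ∀ (c : ℝ) (μ μ' : Measure ℝ) [IsProbabilityMeasure μ]
        [IsProbabilityMeasure μ'], IsCompact μ.support → IsCompact μ'.support →
        (∀ x : ℝ, μ' (Set.Iic x) ≤ μ (Set.Iic (x + c))) → p β μ ≤ p β μ' + β * c / 2 := by
  obtain ⟨p, hp⟩ := exists_PP ν
  refine ⟨p, fun β hβ μ hμ hc => ⟨fun _ _ _ hm hq hq1 => F.Jf_bdd β μ hm hq hq1,
    (hp β hβ).glb μ hμ hc, fun Λ hΛ => ⟨(hp β hβ).l2 μ hμ hc Λ hΛ, (hp β hβ).prob μ hμ hc Λ hΛ,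
      fun Ω _ P _ W hW hlaw => (hp β hβ).as μ hμ hc Λ hΛ Ω P W hW hlaw⟩⟩,
    fun K ρ hρ => ⟨fun B ε hε => unif_all hp hρ hε, fun Λ hΛ Ω _ P _ W hW hlaw =>
      as_unif hp hρ Λ hΛ P W hW hlaw⟩, ?_, ?_⟩
  · intro β hβ μs μ hs hμ hcs hc hw hi hS
    exact (hp β hβ).cont μs μ hs hcs hμ hc ((tendsto_st hs).2 ⟨hw, hi, hS⟩)
  · intro β hβ c μ μ' _ _ hc hc' h
    exact (hp β hβ).comp hβ μ μ' hc hc' h

end Vale.Agent.Results.P166.DeterministicEquivalent
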