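import Vale.Agent.P166.H295.Main

namespace Vale.Agent.Results.P166.GroundStateEnergy

open MeasureTheory Matrix Filter Topology Vale.Agent.P166 Vale.Agent.P157.Par
open Vale.Agent.P166.H295

theorem result
    [∀ N, MeasurableSpace (orthogonalGroup (Fin N) ℝ)]
    [∀ N, BorelSpace (orthogonalGroup (Fin N) ℝ)]
    (ν : (N : ℕ) → Measure (orthogonalGroup (Fin N) ℝ))
    [∀ N, IsProbabilityMeasure (ν N)] [∀ N, (ν N).IsMulLeftInvariant]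
    (μ : Measure ℝ) [IsProbabilityMeasure μ] (hμ : IsCompact μ.support) :
    (∀ β : ℝ, 0 < β →
      (∀ (k : ℕ) (m q : ℕ → ℝ), Exponents k m → Path k q → q k < 1 →
        BddAbove {x : ℝ | ∃ r : ℕ → ℝ, Path k r ∧ x = Jf β μ k m q r}) ∧
      ∃ p : ℝ,
        IsGLB {y : ℝ | ∃ (k : ℕ) (m q : ℕ → ℝ), Exponents k m ∧ Path k q ∧ q 0 = 0 ∧ q k < 1 ∧
          IsLUB {x : ℝ | ∃ r : ℕ → ℝ, Path k r ∧ x = Jf β μ k m q r} y} p ∧
        ∀ Λ : (N : ℕ) → Fin N → ℝ, Admissible Λ μ →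
          Tendsto (fun N => ∫ U, (pressure N β (U.1ᵀ * diagonal (Λ N) * U.1) - p) ^ 2 ∂(ν N))
            atTop (𝓝 0) ∧
          (∀ ε > 0, Tendsto (fun N => (ν N).real
            {U | ε ≤ |pressure N β (U.1ᵀ * diagonal (Λ N) * U.1) - p|}) atTop (𝓝 0)) ∧
          ∀ (Ω : Type) [MeasurableSpace Ω] (P : Measure Ω) [IsProbabilityMeasure P]
            (W : (N : ℕ) → Ω → orthogonalGroup (Fin N) ℝ),
            (∀ N, Measurable (W N)) → (∀ N, P.map (W N) = ν N) →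
            ∀ᵐ ω ∂P, Tendsto (fun N => pressure N β ((W N ω).1ᵀ * diagonal (Λ N) * (W N ω).1))
              atTop (𝓝 p)) ∧
    ∃ (P : ℝ → ℝ) (e : ℝ),
      (∀ β : ℝ, 0 < β →
        IsGLB {y : ℝ | ∃ (k : ℕ) (m q : ℕ → ℝ), Exponents k m ∧ Path k q ∧ q 0 = 0 ∧ q k < 1 ∧
          IsLUB {x : ℝ | ∃ r : ℕ → ℝ, Path k r ∧ x = Jf β μ k m q r} y} (P β)) ∧
      P 0 = 0 ∧ ConvexOn ℝ (Set.Ici 0) P ∧
      (∀ β : ℝ, 0 < β → P β / β ≤ e ∧ e ≤ (P β + Real.log 2) / β) ∧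
      (∀ Λ : (N : ℕ) → Fin N → ℝ, Admissible Λ μ →
        Tendsto (fun N => ∫ U, (maxEnergy N (U.1ᵀ * diagonal (Λ N) * U.1) - e) ^ 2 ∂(ν N))
          atTop (𝓝 0) ∧
        (∀ β u : ℝ, 0 < β → HasDerivAt P u β →
          Tendsto (fun N => ∫ U, (gibbsEnergy N β (U.1ᵀ * diagonal (Λ N) * U.1) - u) ^ 2 ∂(ν N))
            atTop (𝓝 0)) ∧
        ∀ (Ω : Type) [MeasurableSpace Ω] (Q : Measure Ω) [IsProbabilityMeasure Q]
          (W : (N : ℕ) → Ω → orthogonalGroup (Fin N) ℝ),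
          (∀ N, Measurable (W N)) → (∀ N, Q.map (W N) = ν N) →
          InvariantEnsemble Q (fun N ω => (W N ω).1ᵀ * diagonal (Λ N) * (W N ω).1) μ) ∧
      ∀ (Ω : Type) [MeasurableSpace Ω] (Q : Measure Ω) [IsProbabilityMeasure Q]
        (J : (N : ℕ) → Ω → Matrix (Fin N) (Fin N) ℝ), InvariantEnsemble Q J μ →
        ∀ᵐ ω ∂Q,
          (∀ B : ℝ, TendstoUniformlyOn (fun N β => pressure N β (J N ω)) P atTop
            (Set.Icc 0 B)) ∧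
          Tendsto (fun N => maxEnergy N (J N ω)) atTop (𝓝 e) ∧
          ∀ β u : ℝ, 0 < β → HasDerivAt P u β →
            Tendsto (fun N => gibbsEnergy N β (J N ω)) atTop (𝓝 u) := by
  refine ⟨fun β hβ => ⟨fun _ _ _ hm hq hq1 => F.Jf_bdd β μ hm hq hq1,
    full_formula ν hβ μ hμ⟩, ?_⟩
  obtain ⟨P, hP⟩ := exists_P ν μ hμ
  obtain ⟨Λ₀, hΛ₀⟩ := exists_admissible μ hμ
  obtain ⟨hconv, e, C, hC, hL⟩ := hP.lim hΛ₀
  refine ⟨P, e, hP.glb, hP.zero, hconv, fun β hβ => ⟨?_, ?_⟩, fun Λ hΛ =>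
    ⟨hP.l2_max hL hΛ, fun β u hβ hu => hP.l2_gibbs hΛ hβ hu, ?_⟩, ?_⟩
  · rw [div_le_iff₀ hβ]
    have := hL.up β hβ.le
    linarith
  · rw [le_div_iff₀ hβ]
    have := hL.lo β hβ.le
    linarith
  · intro Ω _ Q _ W hW hlaw
    exact haar_ensemble hΛ Q W hW hlaw
  · intro Ω _ Q _ J hJ
    exact hP.as_ensemble hC hL Q J hJ

end Vale.Agent.Results.P166.GroundStateEnergy
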